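import Mathlib
import Vale.Agent.Lib.P047.Final

namespace Vale.Agent.Results.P047.ConstFactor

open Vale.Agent.Lib.P047

/-- For every Boolean function `f` on the cube with Fourier degree at most `d ≥ 2`,
the sum of its level one Fourier coefficients is at most `(24/25) d`; that is, `M(d) ≤ (24/25) d`. -/
theorem result {n d : ℕ} (hd : 2 ≤ d) (f : (Fin n → Bool) → ℝ)
    (hf : ∀ x, f x = 1 ∨ f x = -1) (hdeg : DegLE f d) :
    ∑ i, fourier f {i} ≤ (24 / 25 : ℝ) * d :=
  level_one_sum_le hd f hf hdeg

end Vale.Agent.Results.P047.ConstFactor
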